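import Mathlib
import Vale.Agent.Lib.P194.H86.CentralRes

/-!
# Direct finiteness passes up extensions with residually-`p` kernel (characteristic `p`)

`R` a ring of prime characteristic `p`, `G` a group, `N` a normal subgroup of `G` that is
residually a finite `p`-group.  If `R[G ⧸ N]` is directly finite then so is `R[G]`; the same for
square matrices.

The kernel `J` of `R[G] → R[G ⧸ N]` is spanned by the elements `(n - 1) * (r g)`, `n ∈ N`.  The
idempotent `1 - b a` of `J` lies in every power of `J`; a finite `p`-quotient of `N` that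
separates its support kills a high power of `J` (the augmentation ideal of a finite `p`-group
algebra in characteristic `p` is nilpotent), but not the idempotent unless it is zero.
-/

namespace Vale.Agent.Lib.P194.H65

open MonoidAlgebra

section Core

variable {R : Type*} [Ring R] {G : Type*} [Group G]

/-- Generators of the `m`-th power of the kernel of `R[G] → R[G ⧸ N]`:
the products `(n₁ - 1) ⋯ (n_m - 1) * (r g)` with `nᵢ ∈ N`. -/
def gens (R : Type*) [Ring R] {G : Type*} [Group G] (N : Subgroup G) (m : ℕ) :
    Set (MonoidAlgebra R G) :=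
  {y | ∃ (l : List G) (g : G) (r : R), l.length = m ∧ (∀ n ∈ l, n ∈ N) ∧
    y = (l.map (fun n => (single n (1 : R) - 1 : MonoidAlgebra R G))).prod * single g r}

/-- The additive span of `gens R N m`. -/
noncomputable def S (R : Type*) [Ring R] {G : Type*} [Group G] (N : Subgroup G) (m : ℕ) :
    AddSubgroup (MonoidAlgebra R G) :=
  AddSubgroup.closure (gens R N m)

theorem sub_out_mem_S1 (N : Subgroup G) [N.Normal] (y : MonoidAlgebra R G) :
    y - mapDomain (fun g : G => Quotient.out (QuotientGroup.mk g : G ⧸ N)) y ∈ S R N 1 := by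
  induction y using MonoidAlgebra.induction_linear with
  | zero => rw [mapDomain_zero, sub_zero]; exact zero_mem _
  | add y₁ y₂ h₁ h₂ =>
    rw [mapDomain_add]
    have e : y₁ + y₂ - (mapDomain (fun g : G => Quotient.out (QuotientGroup.mk g : G ⧸ N)) y₁ +
        mapDomain (fun g : G => Quotient.out (QuotientGroup.mk g : G ⧸ N)) y₂)
        = (y₁ - mapDomain (fun g : G => Quotient.out (QuotientGroup.mk g : G ⧸ N)) y₁) +
          (y₂ - mapDomain (fun g : G => Quotient.out (QuotientGroup.mk g : G ⧸ N)) y₂) := by
      abel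
    rw [e]; exact add_mem h₁ h₂
  | single g r =>
    rw [mapDomain_single]
    set s : G := Quotient.out (QuotientGroup.mk g : G ⧸ N) with hs
    have hmk : (QuotientGroup.mk s : G ⧸ N) = QuotientGroup.mk g := Quotient.out_eq _
    have hz1 : s⁻¹ * g ∈ N := QuotientGroup.eq.mp hmk
    have hz : g * s⁻¹ ∈ N := (Subgroup.Normal.mem_comm_iff inferInstance).mp hz1
    have e : single g r - single s r
        = (single (g * s⁻¹) (1 : R) - 1) * single s r := by
      rw [sub_mul, one_mul, single_mul_single, one_mul, inv_mul_cancel_right]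
    rw [e]
    refine AddSubgroup.subset_closure ⟨[g * s⁻¹], s, r, rfl, ?_, ?_⟩
    · intro n hn
      rw [List.mem_singleton] at hn
      rw [hn]; exact hz
    · simp

/-- The kernel of `R[G] → R[G ⧸ N]` is contained in `S R N 1`. -/
theorem ker_le_S1 (N : Subgroup G) [N.Normal] (y : MonoidAlgebra R G)
    (hy : mapDomain (fun g : G => (QuotientGroup.mk g : G ⧸ N)) y = 0) : y ∈ S R N 1 := by
  have hT : mapDomain (fun g : G => Quotient.out (QuotientGroup.mk g : G ⧸ N)) y = 0 := by
    have h2 : mapDomain (fun g : G => Quotient.out (QuotientGroup.mk g : G ⧸ N)) y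
        = mapDomain (fun c : G ⧸ N => Quotient.out c)
          (mapDomain (fun g : G => (QuotientGroup.mk g : G ⧸ N)) y) := by
      apply MonoidAlgebra.coeff_injective
      simp only [MonoidAlgebra.mapDomain, MonoidAlgebra.coeff_ofCoeff]
      rw [← Finsupp.mapDomain_comp]
      rfl
    rw [h2, hy, mapDomain_zero]
  have h := sub_out_mem_S1 N y
  rwa [hT, sub_zero] at h

theorem single_mul_aug (g n : G) (r : R) :
    single g r * (single n (1 : R) - 1)
      = (single (g * n * g⁻¹) (1 : R) - 1) * single g r := by
  rw [mul_sub, sub_mul, mul_one, one_mul, single_mul_single, single_mul_single, mul_one, one_mul,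
    inv_mul_cancel_right]

theorem S_mul_S1 (N : Subgroup G) [N.Normal] {m : ℕ} {y z : MonoidAlgebra R G}
    (hy : y ∈ S R N m) (hz : z ∈ S R N 1) : y * z ∈ S R N (m + 1) := by
  induction hz using AddSubgroup.closure_induction with
  | mem z hz =>
    obtain ⟨l', h, r', hl', hN', rfl⟩ := hz
    match l', hl', hN' with
    | [n], _, hN' =>
      have hn : n ∈ N := hN' n (List.mem_singleton.mpr rfl)
      simp only [List.map_cons, List.map_nil, List.prod_cons, List.prod_nil, mul_one]
      induction hy using AddSubgroup.closure_induction with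
      | mem y hy =>
        obtain ⟨l, g, r, hl, hN, rfl⟩ := hy
        refine AddSubgroup.subset_closure ⟨l ++ [g * n * g⁻¹], g * h, r * r', ?_, ?_, ?_⟩
        · simp [hl]
        · intro k hk
          rw [List.mem_append, List.mem_singleton] at hk
          rcases hk with hk | hk
          · exact hN k hk
          · rw [hk]; exact Subgroup.Normal.conj_mem inferInstance n hn g
        · rw [List.map_append, List.prod_append]
          simp only [List.map_cons, List.map_nil, List.prod_cons, List.prod_nil, mul_one]
          rw [mul_assoc, ← mul_assoc (single g r), single_mul_aug, mul_assoc, single_mul_single]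
          exact (mul_assoc _ _ _).symm
      | zero => rw [zero_mul]; exact zero_mem _
      | add y₁ y₂ _ _ h₁ h₂ => rw [add_mul]; exact add_mem h₁ h₂
      | neg y _ h => rw [neg_mul]; exact neg_mem h
  | zero => rw [mul_zero]; exact zero_mem _
  | add z₁ z₂ _ _ h₁ h₂ => rw [mul_add]; exact add_mem h₁ h₂
  | neg z _ h => rw [mul_neg]; exact neg_mem h

theorem S_mul_single (N : Subgroup G) {m : ℕ} {y : MonoidAlgebra R G} (hy : y ∈ S R N m)
    (t : G) : y * single t (1 : R) ∈ S R N m := by
  induction hy using AddSubgroup.closure_induction with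
  | mem y hy =>
    obtain ⟨l, g, r, hl, hN, rfl⟩ := hy
    refine AddSubgroup.subset_closure ⟨l, g * t, r, hl, hN, ?_⟩
    rw [mul_assoc, single_mul_single, mul_one]
  | zero => rw [zero_mul]; exact zero_mem _
  | add y₁ y₂ _ _ h₁ h₂ => rw [add_mul]; exact add_mem h₁ h₂
  | neg y _ h => rw [neg_mul]; exact neg_mem h

/-- An idempotent of `S R N 1` lies in every `S R N (m + 1)`. -/
theorem idem_mem_S (N : Subgroup G) [N.Normal] (x : MonoidAlgebra R G) (h1 : x ∈ S R N 1)
    (hx : x * x = x) (m : ℕ) : x ∈ S R N (m + 1) := by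
  induction m with
  | zero => exact h1
  | succ m ih => rw [← hx]; exact S_mul_S1 N ih h1

end Core

section Push

variable {R : Type*} [Ring R] {G : Type*} [Group G]

open Classical in
/-- Restriction to `N` followed by the push-forward along `f : N →* P`, as an additive map
`R[G] →+ R[P]`. -/
noncomputable def Psi (N : Subgroup G) {P : Type*} [Group P] (f : N →* P) :
    MonoidAlgebra R G →+ MonoidAlgebra R P where
  toFun y := y.coeff.sum (fun g r => if h : g ∈ N then single (f ⟨g, h⟩) r else 0)
  map_zero' := by simp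
  map_add' y z := by
    rw [coeff_add]
    refine Finsupp.sum_add_index' ?_ ?_
    · intro a; split_ifs <;> simp
    · intro a b c; split_ifs <;> simp [single_add]

open Classical in
theorem Psi_single (N : Subgroup G) {P : Type*} [Group P] (f : N →* P) (g : G) (r : R) :
    Psi N f (single g r) = if h : g ∈ N then single (f ⟨g, h⟩) r else 0 := by
  show (single g r).coeff.sum (fun g r => if h : g ∈ N then single (f ⟨g, h⟩) r else 0) = _
  rw [coeff_single, Finsupp.sum_single_index]
  split_ifs <;> simp

theorem Psi_single_mul (N : Subgroup G) {P : Type*} [Group P] (f : N →* P) (n : G) (hn : n ∈ N)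
    (w : MonoidAlgebra R G) :
    Psi N f (single n (1 : R) * w) = single (f ⟨n, hn⟩) (1 : R) * Psi N f w := by
  induction w using MonoidAlgebra.induction_linear with
  | zero => simp
  | add w₁ w₂ h₁ h₂ => rw [mul_add, map_add, map_add, mul_add, h₁, h₂]
  | single g r =>
    rw [single_mul_single, Psi_single, Psi_single, one_mul]
    by_cases hg : g ∈ N
    · have hng : n * g ∈ N := N.mul_mem hn hg
      rw [dif_pos hng, dif_pos hg, single_mul_single, one_mul]
      have e : (⟨n * g, hng⟩ : N) = ⟨n, hn⟩ * ⟨g, hg⟩ := rfl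
      rw [e, map_mul]
    · have hng : n * g ∉ N := fun h => hg (by simpa using N.mul_mem (N.inv_mem hn) h)
      rw [dif_neg hng, dif_neg hg, mul_zero]

theorem Psi_aug_mul (N : Subgroup G) {P : Type*} [Group P] (f : N →* P) (n : G) (hn : n ∈ N)
    (w : MonoidAlgebra R G) :
    Psi N f ((single n (1 : R) - 1) * w) = (single (f ⟨n, hn⟩) (1 : R) - 1) * Psi N f w := by
  rw [sub_mul, sub_mul, one_mul, one_mul, map_sub, Psi_single_mul N f n hn]

open Classical in
theorem Psi_list_mul (N : Subgroup G) {P : Type*} [Group P] (f : N →* P) (l : List G)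
    (hl : ∀ n ∈ l, n ∈ N) (w : MonoidAlgebra R G) :
    Psi N f ((l.map (fun n => (single n (1 : R) - 1 : MonoidAlgebra R G))).prod * w)
      = ((l.map (fun n => if h : n ∈ N then f ⟨n, h⟩ else 1)).map
          (fun q => (single q (1 : R) - 1 : MonoidAlgebra R P))).prod * Psi N f w := by
  induction l with
  | nil => simp
  | cons n l ih =>
    have hn : n ∈ N := hl n (List.mem_cons_self ..)
    have hl' : ∀ k ∈ l, k ∈ N := fun k hk => hl k (List.mem_cons_of_mem _ hk)
    simp only [List.map_cons, List.prod_cons]
    rw [mul_assoc, Psi_aug_mul N f n hn, ih hl', dif_pos hn, mul_assoc]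

/-- `Psi` kills `S R N m` as soon as products of `B ≤ m` augmentation elements vanish in
`R[P]`. -/
theorem Psi_S_eq_zero (N : Subgroup G) {P : Type*} [Group P] (f : N →* P) (B : ℕ)
    (hB : ∀ l : List P, B ≤ l.length →
      (l.map (fun q => (single q (1 : R) - 1 : MonoidAlgebra R P))).prod = 0)
    (m : ℕ) (hm : B ≤ m) (y : MonoidAlgebra R G) (hy : y ∈ S R N m) : Psi N f y = 0 := by
  induction hy using AddSubgroup.closure_induction with
  | mem y hy =>
    obtain ⟨l, g, r, hl, hN, rfl⟩ := hy
    rw [Psi_list_mul N f l hN, hB _ (by simp [hl, hm]), zero_mul]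
  | zero => exact map_zero _
  | add y₁ y₂ _ _ h₁ h₂ => rw [map_add, h₁, h₂, add_zero]
  | neg y _ h => rw [map_neg, h, neg_zero]

open Classical in
/-- The coefficient of `Psi N f y` at `1` is `y 1` when `f` does not kill any nontrivial element
of `N` in the support of `y`. -/
theorem Psi_coeff_one (N : Subgroup G) {P : Type*} [Group P] (f : N →* P)
    (y : MonoidAlgebra R G)
    (hsep : ∀ g ∈ y.coeff.support, ∀ h : g ∈ N, f ⟨g, h⟩ = 1 → g = 1) :
    (Psi N f y).coeff 1 = y.coeff 1 := by
  have key : ∀ z : MonoidAlgebra R G, (Psi N f z).coeff 1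
      = z.coeff.sum (fun g r => if ∃ h : g ∈ N, f ⟨g, h⟩ = 1 then r else 0) := by
    intro z
    induction z using MonoidAlgebra.induction_linear with
    | zero => simp
    | add z₁ z₂ h₁ h₂ =>
      rw [map_add, coeff_add, Finsupp.add_apply, h₁, h₂, coeff_add]
      refine (Finsupp.sum_add_index' ?_ ?_).symm
      · intro a; split_ifs <;> rfl
      · intro a b c; split_ifs <;> simp
    | single g r =>
      rw [Psi_single, coeff_single, Finsupp.sum_single_index (by split_ifs <;> rfl)]
      by_cases hg : g ∈ N
      · rw [dif_pos hg, coeff_single, Finsupp.single_apply]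
        by_cases h1 : f ⟨g, hg⟩ = 1
        · rw [if_pos h1, if_pos ⟨hg, h1⟩]
        · rw [if_neg h1, if_neg (fun ⟨_, h⟩ => h1 h)]
      · rw [dif_neg hg, coeff_zero, Finsupp.zero_apply, if_neg (fun ⟨h, _⟩ => hg h)]
  rw [key, Finsupp.sum]
  have h2 : ∀ g ∈ y.coeff.support, (if ∃ h : g ∈ N, f ⟨g, h⟩ = 1 then y.coeff g else 0)
      = if g = 1 then y.coeff g else 0 := by
    intro g hg
    by_cases h1 : g = 1
    · subst h1
      rw [if_pos rfl, if_pos ⟨N.one_mem, map_one f⟩]
    · rw [if_neg h1, if_neg (fun ⟨h, hf⟩ => h1 (hsep g hg h hf))]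
  rw [Finset.sum_congr rfl h2, Finset.sum_ite_eq']
  split_ifs with h
  · rfl
  · exact (Finsupp.notMem_support_iff.mp h).symm

end Push

end Vale.Agent.Lib.P194.H65
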