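import Mathlib
import Vale.Agent.Lib.P194.H86.CentralRes
import Vale.Agent.Lib.P194.H65.ResP
import Vale.Agent.Lib.P194.helper71.AugNil

namespace Vale.Agent.Lib.P194.H65

open MonoidAlgebra

universe w

/-- Finitely many nontrivial elements of a residually-`p` group are separated from `1` by one
homomorphism to a finite `p`-group (universe-polymorphic form of helper60's `H60.exists_sep`,
same proof). -/
theorem exists_sep' (p : ℕ) (N : Type*) [Group N]
    (hres : ∀ x : N, x ≠ 1 → ∃ (P : Type w) (_ : Group P) (_ : Finite P) (f : N →* P),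
      IsPGroup p P ∧ f x ≠ 1)
    (D : Finset N) (hD : ∀ d ∈ D, d ≠ 1) :
    ∃ (P : Type w) (_ : Group P) (_ : Finite P) (f : N →* P),
      IsPGroup p P ∧ ∀ d ∈ D, f d ≠ 1 := by
  classical
  induction D using Finset.induction_on with
  | empty =>
    refine ⟨PUnit, inferInstance, inferInstance, 1, ?_, ?_⟩
    · intro g
      exact ⟨0, Subsingleton.elim _ _⟩
    · intro d hd
      simp at hd
  | insert a s ha ih =>
    obtain ⟨P1, hG1, hF1, f1, hp1, hf1⟩ := ih (fun d hd => hD d (Finset.mem_insert_of_mem hd))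
    obtain ⟨P2, hG2, hF2, f2, hp2, hf2⟩ := hres a (hD a (Finset.mem_insert_self a s))
    refine ⟨P1 × P2, inferInstance, inferInstance, f1.prod f2, ?_, ?_⟩
    · intro g
      obtain ⟨k, hk⟩ := hp1 g.1
      obtain ⟨l, hl⟩ := hp2 g.2
      refine ⟨k + l, ?_⟩
      apply Prod.ext
      · rw [Prod.pow_fst, pow_add, pow_mul, hk, one_pow]
        rfl
      · rw [Prod.pow_snd, pow_add, mul_comm, pow_mul, hl, one_pow]
        rfl
    · intro d hd h1
      have h1' : (f1 d, f2 d) = (1 : P1 × P2) := h1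
      rw [Prod.ext_iff] at h1'
      rcases Finset.mem_insert.mp hd with rfl | hd'
      · exact hf2 h1'.2
      · exact hf1 d hd' h1'.1

/-- A normal subgroup of `p`-power index not containing `x` gives a homomorphism to a finite
`p`-group not killing `x`. -/
theorem hom_of_index (p : ℕ) {N : Type w} [Group N]
    (hres : ∀ x : N, x ≠ 1 → ∃ K : Subgroup N, K.Normal ∧ (∃ k : ℕ, K.index = p ^ k) ∧ x ∉ K)
    (hp : p ≠ 0) :
    ∀ x : N, x ≠ 1 → ∃ (P : Type w) (_ : Group P) (_ : Finite P) (f : N →* P),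
      IsPGroup p P ∧ f x ≠ 1 := by
  intro x hx
  obtain ⟨K, hK, ⟨k, hk⟩, hxK⟩ := hres x hx
  have := hK
  have hfi : K.FiniteIndex := ⟨by rw [hk]; exact pow_ne_zero k hp⟩
  refine ⟨N ⧸ K, inferInstance, inferInstance, QuotientGroup.mk' K, ?_, ?_⟩
  · refine IsPGroup.of_card (n := k) ?_
    rw [← Subgroup.index_eq_card, hk]
  · intro h
    exact hxK ((QuotientGroup.eq_one_iff x).mp h)

variable {R : Type*} [Ring R] {G : Type*} [Group G]

/-- An element lying in every power of the kernel of `R[G] → R[G ⧸ N]` vanishes, when `N` is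
residually a finite `p`-group and `R` has characteristic `p`. -/
theorem eq_zero_of_forall_mem_S (p : ℕ) [Fact p.Prime] [CharP R p] (N : Subgroup G)
    (hres : ∀ x : N, x ≠ 1 → ∃ (P : Type w) (_ : Group P) (_ : Finite P) (f : N →* P),
      IsPGroup p P ∧ f x ≠ 1)
    (x : MonoidAlgebra R G) (hS : ∀ m : ℕ, x ∈ S R N (m + 1)) : x = 0 := by
  classical
  by_contra hx0
  have hsupp : x.coeff.support.Nonempty := by
    rw [Finsupp.support_nonempty_iff]
    intro h
    exact hx0 (MonoidAlgebra.coeff_injective h)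
  obtain ⟨s, hs⟩ := hsupp
  set x' : MonoidAlgebra R G := x * single s⁻¹ (1 : R) with hx'
  have hx'1 : x'.coeff 1 = x.coeff s := by
    rw [hx', coeff_mul_single_apply]; simp
  have hx's : x'.coeff 1 ≠ 0 := by
    rw [hx'1]; exact Finsupp.mem_support_iff.mp hs
  have hS' : ∀ m, x' ∈ S R N (m + 1) := fun m => S_mul_single N (hS m) s⁻¹
  let D : Finset N := (x'.coeff.support.subtype (· ∈ N)).erase 1
  obtain ⟨P, iG, iF, f, hP, hf⟩ := exists_sep' p N hres D
    (fun d hd => Finset.ne_of_mem_erase hd)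
  obtain ⟨B, hB⟩ := H71.aug_list_prod_eq_zero p R P hP
  have hzero : Psi N f x' = 0 := Psi_S_eq_zero N f B hB (B + 1) (Nat.le_succ B) x' (hS' B)
  have hone := Psi_coeff_one N f x' (by
    intro g hg h hfg
    by_contra hg1
    have hmem : (⟨g, h⟩ : N) ∈ D := by
      rw [Finset.mem_erase, Finset.mem_subtype]
      exact ⟨fun h' => hg1 (congrArg Subtype.val h'), hg⟩
    exact hf _ hmem hfg)
  rw [hzero] at hone
  exact hx's hone.symm

/-- **Extensions with residually-`p` kernel.** If `R[G ⧸ N]` is directly finite, so is `R[G]`. -/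
theorem resP_up (p : ℕ) [Fact p.Prime] [CharP R p] (N : Subgroup G) [N.Normal]
    (hres : ∀ x : N, x ≠ 1 → ∃ K : Subgroup N, K.Normal ∧ (∃ k : ℕ, K.index = p ^ k) ∧ x ∉ K)
    (hQ : ∀ a b : MonoidAlgebra R (G ⧸ N), a * b = 1 → b * a = 1) :
    ∀ a b : MonoidAlgebra R G, a * b = 1 → b * a = 1 := by
  intro a b hab
  have hker := H86.one_sub_mem_ker N hQ a b hab
  have hidem := H86.idem_one_sub a b hab
  have h0 := eq_zero_of_forall_mem_S p N (hom_of_index p hres (Fact.out : p.Prime).ne_zero)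
    (1 - b * a) (idem_mem_S N _ (ker_le_S1 N _ hker) hidem)
  exact (sub_eq_zero.mp h0).symm

/-- **Extensions with residually-`p` kernel, matrix form.** -/
theorem resP_up_matrix (p : ℕ) [Fact p.Prime] [CharP R p] (N : Subgroup G) [N.Normal]
    (hres : ∀ x : N, x ≠ 1 → ∃ K : Subgroup N, K.Normal ∧ (∃ k : ℕ, K.index = p ^ k) ∧ x ∉ K)
    (n : ℕ)
    (hQ : ∀ A B : Matrix (Fin n) (Fin n) (MonoidAlgebra R (G ⧸ N)), A * B = 1 → B * A = 1) :
    ∀ A B : Matrix (Fin n) (Fin n) (MonoidAlgebra R G), A * B = 1 → B * A = 1 := by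
  intro A B hAB
  have hker := H86.one_sub_entries_mem_ker N n hQ A B hAB
  have hidem : (1 - B * A) * (1 - B * A) = 1 - B * A := H86.idem_one_sub A B hAB
  have hS : ∀ m : ℕ, ∀ i j, (1 - B * A) i j ∈ S R N (m + 1) := by
    intro m
    induction m with
    | zero => exact fun i j => ker_le_S1 N _ (hker i j)
    | succ m ih =>
      intro i j
      have e : (1 - B * A) i j = ∑ k, (1 - B * A) i k * (1 - B * A) k j := by
        conv_lhs => rw [← hidem]
        exact Matrix.mul_apply
      rw [e]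
      exact sum_mem (fun k _ => S_mul_S1 N (ih i k) (ker_le_S1 N _ (hker k j)))
  have h0 : (1 - B * A) = 0 := by
    ext i j
    have h := eq_zero_of_forall_mem_S p N (hom_of_index p hres (Fact.out : p.Prime).ne_zero)
      ((1 - B * A) i j) (fun m => hS m i j)
    rw [h]; rfl
  exact (sub_eq_zero.mp h0).symm

end Vale.Agent.Lib.P194.H65
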